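import Mathlib
import Vale.Agent.P196.Amen.StageOne
import Vale.Agent.P196.Simple
import Vale.Agent.P196.B.Main
import Vale.Agent.P196.Tile.Minimal.Final
import Vale.Agent.P196.Tile.Rigid.Main

/-!
P196: an infinite, finitely presented, simple, amenable group exists. It is the full group of a
minimal, rigid, two-dimensional subshift of finite type with self-similar tiles.
-/

namespace Vale.Agent.Results.P196.AmenableFpSimple

open Vale.Agent.P196

/-- There is an infinite finitely presented simple group with Følner sets. -/
theorem result :
    ∃ (G : Type) (_ : Group G), Infinite G ∧ Group.IsFinitelyPresented G ∧ IsSimpleGroup G ∧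
      ∀ K : Set G, K.Finite → ∀ ε : ℝ, 0 < ε → ∃ D : Set G, D.Finite ∧ D.Nonempty ∧
        ∀ g ∈ K, ((symmDiff ((g * ·) '' D) D).ncard : ℝ) < ε * D.ncard :=
  answer_of_modules Amen.amenable B.presentation
    Simple.simple (Tile.tiling_of_rigid Tile.Rigid.hier_rigid)

end Vale.Agent.Results.P196.AmenableFpSimple
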