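import Mathlib
import Vale.Agent.P196.Folding

/-!
P196: no infinite finitely presented simple group lies in a topological full group of a single
bijection.
-/

universe u v

namespace Vale.Agent.Results.P196.NoFpSimpleInFullGroup

/-- A finitely presented group without nontrivial finite quotients acts trivially by bounded
displacements along the orbits of a bijection; so an infinite finitely presented simple group has
no faithful action of this kind. -/
theorem result :
    (∀ (G : Type u) [Group G] [Group.IsFinitelyPresented G],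
      (∀ (Q : Type) [Group Q] [Finite Q] (f : G →* Q), ∀ g, f g = 1) →
      ∀ (X : Type v) (φ : Equiv.Perm X) (ρ : G →* Equiv.Perm X),
        (∀ g, ∃ N : ℕ, ∀ x, ∃ k : ℤ, |k| ≤ N ∧ ρ g x = (φ ^ k) x) → ∀ g, ρ g = 1) ∧
    (∀ (G : Type u) [Group G] [Group.IsFinitelyPresented G] [IsSimpleGroup G] [Infinite G]
      (X : Type v) (φ : Equiv.Perm X) (ρ : G →* Equiv.Perm X),
        (∀ g, ∃ N : ℕ, ∀ x, ∃ k : ℤ, |k| ≤ N ∧ ρ g x = (φ ^ k) x) →
          ¬ Function.Injective ρ) := by
  refine ⟨fun G _ hfp h X φ ρ hρ g => Vale.Agent.P196.orbit_trivial h hfp φ ρ hρ g, ?_⟩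
  intro G _ hfp hs _ X φ ρ hρ hinj
  have h : ∀ (Q : Type) [Group Q] [Finite Q] (f : G →* Q), ∀ g, f g = 1 := by
    intro Q _ _ f g
    rcases IsSimpleGroup.eq_bot_or_eq_top_of_normal f.ker (MonoidHom.normal_ker f) with hk | hk
    · haveI : Finite G := Finite.of_injective f ((MonoidHom.ker_eq_bot_iff f).1 hk)
      exact absurd ‹Finite G› (not_finite_iff_infinite.2 inferInstance)
    · exact MonoidHom.mem_ker.1 (hk ▸ Subgroup.mem_top g)
  obtain ⟨g, hg⟩ := exists_ne (1 : G)
  exact hg (hinj (by rw [Vale.Agent.P196.orbit_trivial h hfp φ ρ hρ g, map_one]))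

end Vale.Agent.Results.P196.NoFpSimpleInFullGroup
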